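import Vale.Agent.P040.Mono.Drawing
import Vale.Agent.P040.Rect.Range
import Vale.Agent.P040.Rect.Lip
import Vale.Agent.P040.Rect.Sort
import Vale.Agent.P040.Rect.Sorted

/-!
Zarankiewicz's lower bound for every x-monotone drawing of `K_{m,n}`.
-/

namespace Vale.Agent.Results.P040.MonotoneDrawings

open Vale.Agent.P040 Vale.Agent.P040.Rect Vale.Agent.P040.Mono

theorem result : ∀ (m n : ℕ) (pA : Fin m → ℝ × ℝ) (pB : Fin n → ℝ × ℝ)
    (f : Fin m → Fin n → ℝ → ℝ),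
    Function.Injective (fun s => (Sum.elim pA pB s).1) →
    (∀ i q, ContinuousOn (f i q) (Set.uIcc (pA i).1 (pB q).1)) →
    (∀ i q, f i q (pA i).1 = (pA i).2 ∧ f i q (pB q).1 = (pB q).2) →
    (∀ i q (v : Fin m ⊕ Fin n),
      (Sum.elim pA pB v).1 ∈ Set.Ioo (min (pA i).1 (pB q).1) (max (pA i).1 (pB q).1) →
      f i q (Sum.elim pA pB v).1 ≠ (Sum.elim pA pB v).2) →
    (∀ (x y : ℝ) (e₁ e₂ e₃ : Fin m × Fin n), e₁ ≠ e₂ → e₁ ≠ e₃ → e₂ ≠ e₃ →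
      ¬∀ e ∈ [e₁, e₂, e₃],
        x ∈ Set.Ioo (min (pA e.1).1 (pB e.2).1) (max (pA e.1).1 (pB e.2).1) ∧ f e.1 e.2 x = y) →
    ((m / 2 * ((m - 1) / 2) * (n / 2 * ((n - 1) / 2)) : ℕ) : ℕ∞) ≤
      Set.encard {P : ℝ × ℝ | ∃ e e' : Fin m × Fin n, e ≠ e' ∧
        (P.1 ∈ Set.Ioo (min (pA e.1).1 (pB e.2).1) (max (pA e.1).1 (pB e.2).1) ∧
          f e.1 e.2 P.1 = P.2) ∧
        P.1 ∈ Set.Ioo (min (pA e'.1).1 (pB e'.2).1) (max (pA e'.1).1 (pB e'.2).1) ∧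
          f e'.1 e'.2 P.1 = P.2} := by
  intro m n pA pB f hx hc he hav ht
  exact monotone_bound (pair_of_sorted lip_stmt sort_stmt sorted_stmt) range_stmt pA pB f
    ⟨hx, hc, he, fun i q j h => hav i q (Sum.inl j) h.1 h.2,
      fun i q r h => hav i q (Sum.inr r) h.1 h.2,
      fun P e₁ e₂ e₃ h1 h2 h3 h => ht P.1 P.2 e₁ e₂ e₃ h1 h2 h3 fun e he' => by
        simp only [List.mem_cons, List.not_mem_nil, or_false] at he'
        rcases he' with rfl | rfl | rfl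
        exacts [h.1, h.2.1, h.2.2]⟩

end Vale.Agent.Results.P040.MonotoneDrawings
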