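import Vale.Agent.P040.Strip

/-!
The Zarankiewicz lower bound for x-bounded drawings in which one class avoids a vertical strip
containing the other.
-/

namespace Vale.Agent.Results.P040.OuterBlocks

open Vale.Agent.P040 Finset

/-- Opposite orders at the two ends of a common interval force an interior common point. -/
theorem meet {e f : ℝ → ℝ} {a1 b1 a2 b2 L R : ℝ} (ce : ContinuousOn e (Set.uIcc a1 b1))
    (cf : ContinuousOn f (Set.uIcc a2 b2)) (h1 : min a1 b1 ≤ L) (h2 : min a2 b2 ≤ L)
    (h3 : R ≤ max a1 b1) (h4 : R ≤ max a2 b2) (hLR : L < R) (nL : e L ≠ f L) (nR : e R ≠ f R)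
    (hne : decide (f L < e L) ≠ decide (f R < e R)) :
    ∃ x, x ∈ Set.Ioo (min a1 b1) (max a1 b1) ∧ x ∈ Set.Ioo (min a2 b2) (max a2 b2) ∧
      e x = f x := by
  have c1 : ContinuousOn (fun x => e x - f x) (Set.Icc L R) :=
    (ce.mono (Set.Icc_subset_Icc h1 h3)).sub (cf.mono (Set.Icc_subset_Icc h2 h4))
  have fin : ∀ x ∈ Set.Ioo L R, x ∈ Set.Ioo (min a1 b1) (max a1 b1) ∧
      x ∈ Set.Ioo (min a2 b2) (max a2 b2) :=
    fun x hx => ⟨⟨h1.trans_lt hx.1, hx.2.trans_le h3⟩, ⟨h2.trans_lt hx.1, hx.2.trans_le h4⟩⟩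
  rcases nL.lt_or_gt with a | a <;> rcases nR.lt_or_gt with b | b
  · exact absurd hne (by simp [a.not_gt, b.not_gt])
  · obtain ⟨x, hx, hx0⟩ := intermediate_value_Ioo hLR.le c1
      (show (0 : ℝ) ∈ Set.Ioo _ _ from ⟨sub_neg.2 a, sub_pos.2 b⟩)
    exact ⟨x, (fin x hx).1, (fin x hx).2, sub_eq_zero.1 hx0⟩
  · obtain ⟨x, hx, hx0⟩ := intermediate_value_Ioo' hLR.le c1
      (show (0 : ℝ) ∈ Set.Ioo _ _ from ⟨sub_neg.2 b, sub_pos.2 a⟩)
    exact ⟨x, (fin x hx).1, (fin x hx).2, sub_eq_zero.1 hx0⟩
  · exact absurd hne (by simp [a, b])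

section

variable {m n : ℕ} (k : ℕ) (pA : Fin m → ℝ × ℝ) (pB : Fin n → ℝ × ℝ)
  (f : Fin m → Fin n → ℝ → ℝ)

/-- The bit of the star of `i` at the pair `r < q`. -/
noncomputable def starBit (i : Fin m) (r q : Fin n) : Bool :=
  if i.val < k then decide ((pB r).2 < f i q (pB r).1) else decide (f i r (pB q).1 < (pB q).2)

/-- The bit of the edge that passes over the other vertex of a pair in one block. -/
noncomputable def overBit (i j : Fin m) (q : Fin n) : Bool :=
  if i.val < k then decide ((pA j).2 < f i q (pA j).1) else decide ((pA i).2 < f j q (pA i).1)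

/-- The two edges of a bad triple. -/
def edgePair (i j : Fin m) (q r : Fin n) : (Fin m × Fin n) × (Fin m × Fin n) :=
  if k ≤ i.val then ((i, r), (j, q)) else ((i, q), (j, r))

variable (hA : Function.Injective pA) (hB : Function.Injective pB)
  (hleft : ∀ i q, i.val < k → (pA i).1 < (pB q).1)
  (hright : ∀ i q, k ≤ i.val → (pB q).1 < (pA i).1)
  (cont : ∀ i q, ContinuousOn (f i q) (Set.uIcc (pA i).1 (pB q).1))
  (fA : ∀ i q, f i q (pA i).1 = (pA i).2) (fB : ∀ i q, f i q (pB q).1 = (pB q).2)
  (avA : ∀ i j q, (pA j).1 ∈ Set.Ioo (min (pA i).1 (pB q).1) (max (pA i).1 (pB q).1) →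
    f i q (pA j).1 ≠ (pA j).2)
  (avB : ∀ i q r, (pB r).1 ∈ Set.Ioo (min (pA i).1 (pB q).1) (max (pA i).1 (pB q).1) →
    f i q (pB r).1 ≠ (pB r).2)

include hA hB hleft hright cont fA fB avA avB

theorem meet_of_bad {i j : Fin m} {q r : Fin n} (hij : i < j) (hqr : r ≠ q)
    (hAm : Monotone fun a => (pA a).1) (hBm : Monotone fun b => (pB b).1)
    (hbad : if (i.val < k ↔ j.val < k) then
        overBit k pA f i j q ≠ rightBit (starBit k pB f) i j q r
      else r < q ∧ starBit k pB f i r q ≠ starBit k pB f j r q) :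
    ∃ x, x ∈ Set.Ioo (min (pA (edgePair k i j q r).1.1).1 (pB (edgePair k i j q r).1.2).1)
        (max (pA (edgePair k i j q r).1.1).1 (pB (edgePair k i j q r).1.2).1) ∧
      x ∈ Set.Ioo (min (pA (edgePair k i j q r).2.1).1 (pB (edgePair k i j q r).2.2).1)
        (max (pA (edgePair k i j q r).2.1).1 (pB (edgePair k i j q r).2.2).1) ∧
      f (edgePair k i j q r).1.1 (edgePair k i j q r).1.2 x =
        f (edgePair k i j q r).2.1 (edgePair k i j q r).2.2 x := by
  have hxij : (pA i).1 ≤ (pA j).1 := hAm hij.le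
  have hv : i.val < j.val := hij
  have offA : ∀ a b s, a ≠ b → min (pA a).1 (pB s).1 ≤ (pA b).1 →
      (pA b).1 ≤ max (pA a).1 (pB s).1 → (pA b).1 ≠ (pB s).1 → f a s (pA b).1 ≠ (pA b).2 := by
    intro a b s hab h1 h2 h3
    by_cases h : (pA b).1 = (pA a).1
    · rw [h, fA a s]
      exact fun e => hab (hA (Prod.ext h.symm e))
    · refine avA a b s ⟨lt_of_le_of_ne h1 ?_, lt_of_le_of_ne h2 ?_⟩
      · rcases min_choice (pA a).1 (pB s).1 with e | e <;> rw [e]
        · exact Ne.symm h
        · exact h3.symm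
      · rcases max_choice (pA a).1 (pB s).1 with e | e <;> rw [e]
        · exact h
        · exact h3
  have offB : ∀ a s t, s ≠ t → min (pA a).1 (pB s).1 ≤ (pB t).1 →
      (pB t).1 ≤ max (pA a).1 (pB s).1 → (pB t).1 ≠ (pA a).1 → f a s (pB t).1 ≠ (pB t).2 := by
    intro a s t hst h1 h2 h3
    by_cases h : (pB t).1 = (pB s).1
    · rw [h, fB a s]
      exact fun e => hst (hB (Prod.ext h.symm e))
    · refine avB a s t ⟨lt_of_le_of_ne h1 ?_, lt_of_le_of_ne h2 ?_⟩
      · rcases min_choice (pA a).1 (pB s).1 with e | e <;> rw [e]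
        · exact h3.symm
        · exact Ne.symm h
      · rcases max_choice (pA a).1 (pB s).1 with e | e <;> rw [e]
        · exact h3
        · exact h
  have flip : ∀ x y : ℝ, x ≠ y → decide (x < y) = !decide (y < x) := by
    intro x y h
    rcases h.lt_or_gt with h | h <;> simp [h, h.not_gt]
  rcases lt_or_ge i.val k with hi | hi
  · rw [edgePair, if_neg hi.not_ge]
    have hiq : ∀ s, (pA i).1 < (pB s).1 := fun s => hleft i s hi
    rcases lt_or_ge j.val k with hj | hj
    · rw [if_pos (iff_of_true hi hj)] at hbad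
      have hjq : ∀ s, (pA j).1 < (pB s).1 := fun s => hleft j s hj
      have nL : f i q (pA j).1 ≠ f j r (pA j).1 := by
        rw [fA j r]
        exact offA i j q hij.ne (le_trans (min_le_left _ _) hxij)
          (le_trans (hjq q).le (le_max_right _ _)) (hjq q).ne
      rcases lt_or_gt_of_ne hqr with h | h
      · have nR : f i q (pB r).1 ≠ f j r (pB r).1 := by
          rw [fB j r]
          exact offB i q r h.ne' (le_trans (min_le_left _ _) (hiq r).le)
            (le_trans (hBm h.le) (le_max_right _ _)) (hiq r).ne'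
        refine meet (cont i q) (cont j r) (le_trans (min_le_left _ _) hxij) (min_le_left _ _)
          (le_trans (hBm h.le) (le_max_right _ _)) (le_max_right _ _) (hjq r) nL nR ?_
        rw [fA j r, fB j r]
        simpa [overBit, starBit, rightBit, hi, h] using hbad
      · have nR : f i q (pB q).1 ≠ f j r (pB q).1 := by
          rw [fB i q]
          exact (offB j r q h.ne' (le_trans (min_le_left _ _) (hjq q).le)
            (le_trans (hBm h.le) (le_max_right _ _)) (hjq q).ne').symm
        refine meet (cont i q) (cont j r) (le_trans (min_le_left _ _) hxij) (min_le_left _ _)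
          (le_max_right _ _) (le_trans (hBm h.le) (le_max_right _ _)) (hjq q) nL nR ?_
        rw [fA j r, fB i q, flip (f j r (pB q).1) (pB q).2 (by rw [fB i q] at nR; exact nR.symm)]
        simpa [overBit, starBit, rightBit, hi, hj, h.not_gt] using hbad
    · rw [if_neg (by simp [hi, hj.not_gt])] at hbad
      obtain ⟨hrq, hne⟩ := hbad
      have hjq : ∀ s, (pB s).1 < (pA j).1 := fun s => hright j s hj
      have nL : f i q (pB r).1 ≠ f j r (pB r).1 := by
        rw [fB j r]
        exact offB i q r hrq.ne' (le_trans (min_le_left _ _) (hiq r).le)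
          (le_trans (hBm hrq.le) (le_max_right _ _)) (hiq r).ne'
      have nR : f i q (pB q).1 ≠ f j r (pB q).1 := by
        rw [fB i q]
        exact (offB j r q hrq.ne (le_trans (min_le_right _ _) (hBm hrq.le))
          (le_trans (hjq q).le (le_max_left _ _)) (hjq q).ne).symm
      have hxlt : (pB r).1 < (pB q).1 := by
        rcases (hBm hrq.le).lt_or_eq with h | h
        · exact h
        · exfalso
          rw [starBit, starBit, if_pos hi, if_neg hj.not_gt] at hne
          have e1 : f i q (pB r).1 = (pB q).2 := by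
            have h' : (pB r).1 = (pB q).1 := h
            rw [h', fB i q]
          have e2 : f j r (pB q).1 = (pB r).2 := by
            have h' : (pB q).1 = (pB r).1 := h.symm
            rw [h', fB j r]
          rw [e1, e2] at hne
          exact hne rfl
      refine meet (cont i q) (cont j r) (le_trans (min_le_left _ _) (hiq r).le) (min_le_right _ _)
        (le_max_right _ _) (le_trans (hjq q).le (le_max_left _ _)) hxlt nL nR ?_
      rw [fB j r, fB i q]
      simpa [starBit, hi, hj.not_gt] using hne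
  · rw [edgePair, if_pos hi]
    have hj : k ≤ j.val := by omega
    rw [if_pos (iff_of_false hi.not_gt hj.not_gt)] at hbad
    have hiq : ∀ s, (pB s).1 < (pA i).1 := fun s => hright i s hi
    have hjq : ∀ s, (pB s).1 < (pA j).1 := fun s => hright j s hj
    have nR : f i r (pA i).1 ≠ f j q (pA i).1 := by
      rw [fA i r]
      exact (offA j i q hij.ne' (le_trans (min_le_right _ _) (hiq q).le)
        (le_trans hxij (le_max_left _ _)) (hiq q).ne').symm
    rcases lt_or_gt_of_ne hqr with h | h
    · have nL : f i r (pB q).1 ≠ f j q (pB q).1 := by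
        rw [fB j q]
        exact offB i r q h.ne (le_trans (min_le_right _ _) (hBm h.le))
          (le_trans (hiq q).le (le_max_left _ _)) (hiq q).ne
      refine meet (cont i r) (cont j q) (le_trans (min_le_right _ _) (hBm h.le)) (min_le_right _ _)
        (le_max_left _ _) (le_trans hxij (le_max_left _ _)) (hiq q) nL nR ?_
      rw [fA i r, fB j q, flip (pB q).2 (f i r (pB q).1) (by rw [fB j q] at nL; exact nL.symm),
        flip (f j q (pA i).1) (pA i).2 (by rw [fA i r] at nR; exact nR.symm)]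
      simpa [overBit, starBit, rightBit, hi.not_gt, h, iff_comm] using hbad
    · have nL : f i r (pB r).1 ≠ f j q (pB r).1 := by
        rw [fB i r]
        exact (offB j q r h.ne (le_trans (min_le_right _ _) (hBm h.le))
          (le_trans (hjq r).le (le_max_left _ _)) (hjq r).ne).symm
      refine meet (cont i r) (cont j q) (min_le_right _ _) (le_trans (min_le_right _ _) (hBm h.le))
        (le_max_left _ _) (le_trans hxij (le_max_left _ _)) (hiq r) nL nR ?_
      rw [fA i r, fB i r, flip (f j q (pA i).1) (pA i).2 (by rw [fA i r] at nR; exact nR.symm)]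
      simpa [overBit, starBit, rightBit, hi.not_gt, hj.not_gt, h.not_gt, ne_comm] using hbad

end

theorem result : ∀ (m n : ℕ) (pA : Fin m → ℝ × ℝ) (pB : Fin n → ℝ × ℝ)
    (f : Fin m → Fin n → ℝ → ℝ),
    Function.Injective pA → Function.Injective pB →
    (∀ i, (∀ q, (pA i).1 < (pB q).1) ∨ ∀ q, (pB q).1 < (pA i).1) →
    (∀ i q, ContinuousOn (f i q) (Set.uIcc (pA i).1 (pB q).1)) →
    (∀ i q, f i q (pA i).1 = (pA i).2 ∧ f i q (pB q).1 = (pB q).2) →
    (∀ i j q, (pA j).1 ∈ Set.Ioo (min (pA i).1 (pB q).1) (max (pA i).1 (pB q).1) →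
      f i q (pA j).1 ≠ (pA j).2) →
    (∀ i q r, (pB r).1 ∈ Set.Ioo (min (pA i).1 (pB q).1) (max (pA i).1 (pB q).1) →
      f i q (pB r).1 ≠ (pB r).2) →
    m / 2 * ((m - 1) / 2) * (n / 2 * ((n - 1) / 2)) ≤
      Set.ncard {e : (Fin m × Fin n) × (Fin m × Fin n) | e.1.1 < e.2.1 ∧ e.1.2 ≠ e.2.2 ∧
        ∃ x, x ∈ Set.Ioo (min (pA e.1.1).1 (pB e.1.2).1) (max (pA e.1.1).1 (pB e.1.2).1) ∧
          x ∈ Set.Ioo (min (pA e.2.1).1 (pB e.2.2).1) (max (pA e.2.1).1 (pB e.2.2).1) ∧
          f e.1.1 e.1.2 x = f e.2.1 e.2.2 x} := by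
  intro m n pA pB f hA hB side cont ends avA avB
  classical
  rcases Nat.eq_zero_or_pos n with hn | hn
  · subst hn; simp
  set sA : Equiv.Perm (Fin m) := Tuple.sort fun a => (pA a).1
  set sB : Equiv.Perm (Fin n) := Tuple.sort fun b => (pB b).1
  set qA : Fin m → ℝ × ℝ := fun a => pA (sA a) with hqA
  set qB : Fin n → ℝ × ℝ := fun b => pB (sB b) with hqB
  have hmA : Monotone fun a => (qA a).1 := Tuple.monotone_sort fun a => (pA a).1
  set Lf : Finset (Fin m) := univ.filter fun a => ∀ b, (qA a).1 < (qB b).1 with hLf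
  set k := Lf.card with hk
  have down : ∀ a ∈ Lf, ∀ c ≤ a, c ∈ Lf := by
    intro a ha c hc
    simp only [hLf, mem_filter, mem_univ, true_and] at ha ⊢
    exact fun b => (hmA hc).trans_lt (ha b)
  have memL : ∀ a : Fin m, a ∈ Lf ↔ a.val < k := by
    intro a
    constructor
    · intro ha
      have h1 : (Iic a).card ≤ k := card_le_card fun c hc => down a ha c (mem_Iic.1 hc)
      rw [Fin.card_Iic] at h1
      omega
    · intro ha
      by_contra h
      have h1 : k ≤ (Iio a).card := card_le_card fun c hc =>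
        mem_Iio.2 (not_le.1 fun hh => h (down c hc a hh))
      rw [Fin.card_Iio] at h1
      omega
  have hleft : ∀ a b, a.val < k → (qA a).1 < (qB b).1 := by
    intro a b ha
    have := (memL a).2 ha
    simp only [hLf, mem_filter, mem_univ, true_and] at this
    exact this b
  have hright : ∀ a b, k ≤ a.val → (qB b).1 < (qA a).1 := by
    intro a b ha
    rcases side (sA a) with h | h
    · exfalso
      have : a ∈ Lf := by
        simp only [hLf, mem_filter, mem_univ, true_and]
        exact fun c => h (sB c)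
      have := (memL a).1 this
      omega
    · exact h (sB b)
  set g : Fin m → Fin n → ℝ → ℝ := fun a b => f (sA a) (sB b) with hg0
  set u := overBit k qA g with hu
  set v := starBit k qB g with hv
  set S : Finset ((Fin m × Fin n) × (Fin m × Fin n)) := univ.filter fun e =>
    e.1.1 < e.2.1 ∧ e.2.2 ≠ e.1.2 ∧
      (if (e.1.1.val < k ↔ e.2.1.val < k) then u e.1.1 e.2.1 e.1.2 ≠
          rightBit v e.1.1 e.2.1 e.1.2 e.2.2
        else e.2.2 < e.1.2 ∧ v e.1.1 e.2.2 e.1.2 ≠ v e.2.1 e.2.2 e.1.2) with hS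
  have hcard : (∑ i : Fin m, ∑ j : Fin m, if i < j then ∑ q, pairCost k u v i j q else 0) =
      S.card := by
    rw [hS, Finset.card_filter, Fintype.sum_prod_type, Fintype.sum_prod_type]
    refine Finset.sum_congr rfl fun i _ => ?_
    simp only [Fintype.sum_prod_type]
    rw [Finset.sum_comm]
    refine Finset.sum_congr rfl fun q _ => ?_
    by_cases h : i < q
    · simp only [h, if_true]
      refine Finset.sum_congr rfl fun b _ => ?_
      rw [pairCost, ← Finset.filter_ne', Finset.filter_filter, Finset.card_filter]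
      simp
    · simp [h]
  set G : (Fin m × Fin n) × (Fin m × Fin n) → (Fin m × Fin n) × (Fin m × Fin n) := fun e =>
    if sA (edgePair k e.1.1 e.2.1 e.1.2 e.2.2).1.1 < sA (edgePair k e.1.1 e.2.1 e.1.2 e.2.2).2.1 then
      ((sA (edgePair k e.1.1 e.2.1 e.1.2 e.2.2).1.1, sB (edgePair k e.1.1 e.2.1 e.1.2 e.2.2).1.2),
        (sA (edgePair k e.1.1 e.2.1 e.1.2 e.2.2).2.1, sB (edgePair k e.1.1 e.2.1 e.1.2 e.2.2).2.2))
    else
      ((sA (edgePair k e.1.1 e.2.1 e.1.2 e.2.2).2.1, sB (edgePair k e.1.1 e.2.1 e.1.2 e.2.2).2.2),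
        (sA (edgePair k e.1.1 e.2.1 e.1.2 e.2.2).1.1, sB (edgePair k e.1.1 e.2.1 e.1.2 e.2.2).1.2))
    with hG
  have efst : ∀ i j q r, (edgePair k i j q r : (Fin m × Fin n) × (Fin m × Fin n)).1.1 = i ∧
      (edgePair k i j q r : (Fin m × Fin n) × (Fin m × Fin n)).2.1 = j := by
    intro i j q r
    unfold edgePair
    split_ifs <;> simp
  refine le_trans (parity_strip k u v) ?_
  rw [hcard, Set.ncard_eq_toFinset_card']
  refine Finset.card_le_card_of_injOn G ?_ ?_
  · intro e he
    obtain ⟨-, hij, hrq, hbad⟩ := Finset.mem_filter.1 he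
    obtain ⟨x, hx1, hx2, hx⟩ := meet_of_bad k qA qB g (hA.comp sA.injective)
      (hB.comp sB.injective) hleft hright (fun a b => cont _ _) (fun a b => (ends _ _).1)
      (fun a b => (ends _ _).2) (fun a c b => avA _ _ _) (fun a b c => avB _ _ _) hij hrq hmA
      (Tuple.monotone_sort fun b => (pB b).1) hbad
    have hne : sA e.1.1 ≠ sA e.2.1 := fun h => hij.ne (sA.injective h)
    have hB' : sB (edgePair k e.1.1 e.2.1 e.1.2 e.2.2).1.2 ≠
        sB (edgePair k e.1.1 e.2.1 e.1.2 e.2.2).2.2 := by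
      unfold edgePair
      split_ifs
      · exact fun h => hrq (sB.injective h)
      · exact fun h => hrq (sB.injective h).symm
    simp only [Set.coe_toFinset, Set.mem_setOf_eq, hG]
    rw [(efst e.1.1 e.2.1 e.1.2 e.2.2).1, (efst e.1.1 e.2.1 e.1.2 e.2.2).2] at *
    split_ifs with h
    · exact ⟨h, hB', x, hx1, hx2, hx⟩
    · exact ⟨lt_of_le_of_ne (not_lt.1 h) hne.symm, hB'.symm, x, hx2, hx1, hx.symm⟩
  · intro a ha b hb hab
    have ha' := (Finset.mem_filter.1 ha).2.1
    have hb' := (Finset.mem_filter.1 hb).2.1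
    simp only [hG, edgePair] at hab
    split_ifs at hab <;>
      simp only [Prod.mk.injEq, EmbeddingLike.apply_eq_iff_eq] at hab <;>
      obtain ⟨⟨e1, e2⟩, e3, e4⟩ := hab <;>
      first
      | exact Prod.ext (Prod.ext e1 e2) (Prod.ext e3 e4)
      | exact Prod.ext (Prod.ext e1 e4) (Prod.ext e3 e2)
      | exact Prod.ext (Prod.ext e3 e4) (Prod.ext e1 e2)
      | exact Prod.ext (Prod.ext e3 e2) (Prod.ext e1 e4)
      | (have h1 := congrArg Fin.val e1
         have h3 := congrArg Fin.val e3
         simp only [Fin.lt_def] at ha' hb'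
         omega)

end Vale.Agent.Results.P040.OuterBlocks
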